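import Vale.Agent.P068.Defs

/-!
A uniform matroid from a three-valued colouring of the subsets modulo finite sets.
-/

namespace Vale.Agent.P068

open Set

/-- Almost inclusion. -/
def AE {α : Type} (X Y : Set α) : Prop := (X \ Y).Finite

theorem AE.refl {α : Type} (X : Set α) : AE X X := by simp [AE]

theorem AE.of_subset {α : Type} {X Y : Set α} (h : X ⊆ Y) : AE X Y := by
  simp [AE, Set.sdiff_eq_empty.2 h]

theorem AE.trans {α : Type} {X Y Z : Set α} (h₁ : AE X Y) (h₂ : AE Y Z) : AE X Z := by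
  refine (Set.Finite.union h₁ h₂).subset ?_
  intro x hx
  by_cases h : x ∈ Y
  · exact Or.inr ⟨h, hx.2⟩
  · exact Or.inl ⟨hx.1, h⟩

theorem AE.compl {α : Type} {X Y : Set α} (h : AE X Y) : AE Yᶜ Xᶜ := by
  refine Set.Finite.subset h ?_
  intro x hx
  exact ⟨by_contra fun hh => hx.2 hh, hx.1⟩

/-- A colouring `-1` (small), `0` (contains bases), `1` (large) of subsets modulo finite sets. -/
structure Coloring (P : Type) where
  st : Set P → SignType
  mono : ∀ X Y, AE X Y → st X ≤ st Y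
  anti : ∀ X Y, st X = 0 → st Y = 0 → AE X Y → AE Y X
  cross : ∀ A Z, st A = -1 → st Z = 1 → AE A Z → ∃ B, st B = 0 ∧ AE A B ∧ AE B Z
  st_empty : st ∅ = -1
  st_univ : st univ = 1

namespace Coloring

variable {P : Type} (c : Coloring P)

/-- A representative of the class of `Y` modulo finite sets. -/
noncomputable def rep (Y : Set P) : Set P :=
  Classical.epsilon fun B => AE B Y ∧ AE Y B

theorem rep_spec (Y : Set P) : AE (rep Y) Y ∧ AE Y (rep Y) :=
  Classical.epsilon_spec (p := fun B => AE B Y ∧ AE Y B) ⟨Y, AE.refl Y, AE.refl Y⟩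

theorem rep_congr {X Y : Set P} (h₁ : AE X Y) (h₂ : AE Y X) : rep X = rep Y := by
  have : (fun B => AE B X ∧ AE X B) = (fun B => AE B Y ∧ AE Y B) :=
    funext fun B => propext ⟨fun h => ⟨h.1.trans h₁, h₂.trans h.2⟩,
      fun h => ⟨h.1.trans h₂, h₁.trans h.2⟩⟩
  simp only [rep, this]

/-- The finite excess of `Y` over the representative of its class. -/
noncomputable def excess (Y : Set P) : ℤ :=
  ((Y \ rep Y).ncard : ℤ) - ((rep Y \ Y).ncard : ℤ)

theorem excess_add {X Y : Set P} (h : X ⊆ Y) (hf : (Y \ X).Finite) :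
    excess Y = excess X + ((Y \ X).ncard : ℤ) := by
  have hr : rep Y = rep X := rep_congr hf (AE.of_subset h)
  have hX := rep_spec X
  unfold excess
  rw [hr]
  set r := rep X
  have e1 : Y \ r = (X \ r) ∪ ((Y \ X) \ r) := by
    ext x; have := @h x; simp only [mem_sdiff, mem_union]; tauto
  have e2 : r \ X = (r \ Y) ∪ ((Y \ X) ∩ r) := by
    ext x; have := @h x; simp only [mem_sdiff, mem_union, mem_inter_iff]; tauto
  have d1 : Disjoint (X \ r) ((Y \ X) \ r) := by
    rw [Set.disjoint_left]; intro x hx hy; exact hy.1.2 hx.1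
  have d2 : Disjoint (r \ Y) ((Y \ X) ∩ r) := by
    rw [Set.disjoint_left]; intro x hx hy; exact hx.2 hy.1.1
  have f1 : (X \ r).Finite := hX.2
  have f2 : (r \ Y).Finite := hX.1.subset (Set.sdiff_subset_sdiff_right h)
  rw [e1, e2, Set.ncard_union_eq d1 f1 (hf.subset Set.sdiff_subset),
    Set.ncard_union_eq d2 f2 (hf.subset Set.inter_subset_left)]
  have := Set.ncard_inter_add_ncard_sdiff_eq_ncard (Y \ X) r hf
  push_cast
  omega

/-- Independence for the colouring. -/
def Ind (Y : Set P) : Prop := c.st Y = -1 ∨ (c.st Y = 0 ∧ excess Y ≤ 0)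

/-- The bases. -/
def IsB (Y : Set P) : Prop := c.st Y = 0 ∧ excess Y = 0

theorem sign_cases (s : SignType) : s = -1 ∨ s = 0 ∨ s = 1 := by
  cases s <;> simp

theorem ind_subset {X Y : Set P} (hY : c.Ind Y) (h : X ⊆ Y) : c.Ind X := by
  have hm := c.mono X Y (AE.of_subset h)
  rcases hY with hY | ⟨hY, he⟩
  · rw [hY] at hm
    rcases sign_cases (c.st X) with h1 | h1 | h1
    · exact Or.inl h1
    · simp [h1] at hm
    · simp [h1] at hm
  · rw [hY] at hm
    rcases sign_cases (c.st X) with h1 | h1 | h1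
    · exact Or.inl h1
    · have := excess_add h (c.anti X Y h1 hY (AE.of_subset h))
      exact Or.inr ⟨h1, by omega⟩
    · simp [h1] at hm

theorem isB_maximal {Y : Set P} (hY : c.IsB Y) : Maximal c.Ind Y := by
  refine ⟨Or.inr ⟨hY.1, hY.2.le⟩, fun Z hZ hYZ => ?_⟩
  by_contra hne
  have hm := c.mono Y Z (AE.of_subset hYZ)
  rw [hY.1] at hm
  rcases hZ with hZ | ⟨hZ, he⟩
  · simp [hZ] at hm
  · have hf := c.anti Y Z hY.1 hZ (AE.of_subset hYZ)
    have := excess_add hYZ hf
    obtain ⟨x, hxZ, hxY⟩ := Set.not_subset.1 hne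
    have hp : 0 < (Z \ Y).ncard := (Set.ncard_pos hf).2 ⟨x, hxZ, hxY⟩
    have := hY.2
    omega

theorem exists_insert {Y : Set P} (hY : c.Ind Y) (hn : ¬ c.IsB Y) :
    ∀ x, x ∉ Y → c.Ind (insert x Y) := by
  intro x hx
  have hd : insert x Y \ Y = {x} := by
    ext z; simp only [mem_sdiff, mem_insert_iff, mem_singleton_iff]
    constructor
    · rintro ⟨h | h, h2⟩
      · exact h
      · exact absurd h h2
    · rintro rfl; exact ⟨Or.inl rfl, hx⟩
  have hf : (insert x Y \ Y).Finite := by rw [hd]; exact Set.finite_singleton x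
  have hsub : Y ⊆ insert x Y := Set.subset_insert x Y
  have hst : c.st (insert x Y) = c.st Y :=
    le_antisymm (c.mono _ _ hf) (c.mono _ _ (AE.of_subset hsub))
  rcases hY with hY | ⟨hY, he⟩
  · exact Or.inl (hst.trans hY)
  · have := excess_add hsub hf
    rw [hd, Set.ncard_singleton] at this
    have : excess Y ≠ 0 := fun h => hn ⟨hY, h⟩
    exact Or.inr ⟨hst.trans hY, by omega⟩

theorem maximal_isB {Y : Set P} (hY : Maximal c.Ind Y) : c.IsB Y := by
  by_contra hn
  obtain ⟨x, hx⟩ : ∃ x, x ∉ Y := by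
    by_contra h
    push Not at h
    have hu : Y = univ := Set.eq_univ_of_forall h
    rcases hY.1 with h1 | ⟨h1, -⟩ <;> simp [hu, c.st_univ] at h1
  have := hY.2 (c.exists_insert hY.1 hn x hx) (Set.subset_insert x Y)
  exact hx (this (Set.mem_insert x Y))

theorem exists_isB_between {I X : Set P} (hI : c.Ind I) (hIX : I ⊆ X) (hX : ¬ c.Ind X) :
    ∃ B, c.IsB B ∧ I ⊆ B ∧ B ⊆ X := by
  obtain ⟨C, hC, hIC, hCX⟩ : ∃ C, c.st C = 0 ∧ AE I C ∧ AE C X := by
    rcases hI with hI | ⟨hI, -⟩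
    · rcases sign_cases (c.st X) with h | h | h
      · exact absurd (Or.inl h) hX
      · exact ⟨X, h, AE.of_subset hIX, AE.refl X⟩
      · exact c.cross I X hI h (AE.of_subset hIX)
    · exact ⟨I, hI, AE.refl I, AE.of_subset hIX⟩
  set B₁ := (C ∪ I) ∩ X with hB₁
  have hIB : I ⊆ B₁ := fun x hx => ⟨Or.inr hx, hIX hx⟩
  have hBX : B₁ ⊆ X := Set.inter_subset_right
  have h1 : AE B₁ C := by
    refine Set.Finite.subset hIC ?_
    rintro x ⟨⟨hx | hx, -⟩, hxC⟩
    · exact absurd hx hxC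
    · exact ⟨hx, hxC⟩
  have h2 : AE C B₁ := by
    refine Set.Finite.subset hCX ?_
    rintro x ⟨hxC, hxB⟩
    exact ⟨hxC, fun hxX => hxB ⟨Or.inl hxC, hxX⟩⟩
  have hst : c.st B₁ = 0 :=
    hC ▸ le_antisymm (c.mono _ _ h1) (c.mono _ _ h2)
  rcases le_or_gt (excess B₁) 0 with hd | hd
  · obtain ⟨n, hn⟩ := Int.exists_eq_neg_ofNat hd
    obtain ⟨T, hT, hTf, hTn⟩ : ∃ T ⊆ X \ B₁, T.Finite ∧ T.ncard = n := by
      by_cases hfin : (X \ B₁).Finite
      · have hstX : c.st X = 0 :=
          hst ▸ le_antisymm (c.mono _ _ hfin) (c.mono _ _ (AE.of_subset hBX))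
        have hpos : ¬ excess X ≤ 0 := fun h => hX (Or.inr ⟨hstX, h⟩)
        have := excess_add hBX hfin
        obtain ⟨T, hT, hTn⟩ :=
          Set.exists_subset_card_eq (s := X \ B₁) (n := n) (by omega)
        exact ⟨T, hT, hfin.subset hT, hTn⟩
      · obtain ⟨T, hT, hTn⟩ := Set.Infinite.exists_subset_card_eq hfin n
        exact ⟨T, by simpa using hT, T.finite_toSet, by simpa using hTn⟩
    refine ⟨B₁ ∪ T, ⟨?_, ?_⟩, hIB.trans Set.subset_union_left,
      Set.union_subset hBX (hT.trans Set.sdiff_subset)⟩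
    · have hf : AE (B₁ ∪ T) B₁ := hTf.subset (fun x hx => hx.1.resolve_left hx.2)
      exact hst ▸ le_antisymm (c.mono _ _ hf) (c.mono _ _ (AE.of_subset Set.subset_union_left))
    · have hdiff : (B₁ ∪ T) \ B₁ = T := by
        ext x
        exact ⟨fun hx => hx.1.resolve_left hx.2, fun hx => ⟨Or.inr hx, (hT hx).2⟩⟩
      rw [excess_add Set.subset_union_left (by rw [hdiff]; exact hTf), hdiff, hTn, hn]
      omega
  · obtain ⟨n, hn⟩ := Int.eq_ofNat_of_zero_le hd.le
    obtain ⟨T, hT, hTf, hTn⟩ : ∃ T ⊆ B₁ \ I, T.Finite ∧ T.ncard = n := by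
      by_cases hfin : (B₁ \ I).Finite
      · have hstI : c.st I = 0 :=
          hst ▸ le_antisymm (c.mono _ _ (AE.of_subset hIB)) (c.mono _ _ hfin)
        have hle : excess I ≤ 0 := by
          rcases hI with h | ⟨-, h⟩
          · simp [hstI] at h
          · exact h
        have := excess_add hIB hfin
        obtain ⟨T, hT, hTn⟩ :=
          Set.exists_subset_card_eq (s := B₁ \ I) (n := n) (by omega)
        exact ⟨T, hT, hfin.subset hT, hTn⟩
      · obtain ⟨T, hT, hTn⟩ := Set.Infinite.exists_subset_card_eq hfin n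
        exact ⟨T, by simpa using hT, T.finite_toSet, by simpa using hTn⟩
    have hdiff : B₁ \ (B₁ \ T) = T := by
      ext x
      exact ⟨fun hx => by_contra fun h => hx.2 ⟨hx.1, h⟩, fun hx => ⟨(hT hx).1, fun h => h.2 hx⟩⟩
    refine ⟨B₁ \ T, ⟨?_, ?_⟩, fun x hx => ⟨hIB hx, fun h => (hT h).2 hx⟩,
      Set.sdiff_subset.trans hBX⟩
    · have hf : AE B₁ (B₁ \ T) := by rw [AE, hdiff]; exact hTf
      exact hst ▸ le_antisymm (c.mono _ _ (AE.of_subset Set.sdiff_subset)) (c.mono _ _ hf)
    · have := excess_add (X := B₁ \ T) (Y := B₁) Set.sdiff_subset (by rw [hdiff]; exact hTf)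
      rw [hdiff, hTn] at this
      omega

/-- The matroid of a colouring, as independence data. -/
noncomputable def indepMatroid : IndepMatroid P where
  E := univ
  Indep := c.Ind
  indep_empty := Or.inl c.st_empty
  indep_subset := fun _ _ hJ h => c.ind_subset hJ h
  indep_aug := by
    intro I B hI hnI hB
    have hne : ¬ B ⊆ I := fun h => hnI (by
      rwa [show I = B from (subset_antisymm h (hB.2 hI h)).symm])
    obtain ⟨x, hxB, hxI⟩ := Set.not_subset.1 hne
    exact ⟨x, ⟨hxB, hxI⟩, c.exists_insert hI (fun h => hnI (c.isB_maximal h)) x hxI⟩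
  indep_maximal := by
    intro X _ I hI hIX
    by_cases hX : c.Ind X
    · exact ⟨X, hIX, ⟨hX, subset_rfl⟩, fun K hK _ => hK.2⟩
    · obtain ⟨B, hB, hIB, hBX⟩ := c.exists_isB_between hI hIX hX
      exact ⟨B, hIB, ⟨(c.isB_maximal hB).1, hBX⟩,
        fun K hK h => (c.isB_maximal hB).2 hK.1 h⟩
  subset_ground := fun _ _ => Set.subset_univ _

/-- The matroid of a colouring. -/
noncomputable def toMatroid : Matroid P := c.indepMatroid.matroid

@[simp] theorem toMatroid_ground : c.toMatroid.E = univ := rfl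

theorem toMatroid_indep {Y : Set P} : c.toMatroid.Indep Y ↔ c.Ind Y := Iff.rfl

theorem toMatroid_isBase {Y : Set P} (h : c.toMatroid.IsBase Y) : c.st Y = 0 :=
  (c.maximal_isB h).1

theorem not_spanning_of_st {Y : Set P} (h : c.st Y = -1) : ¬ c.toMatroid.Spanning Y := by
  intro hs
  obtain ⟨B, hB, hBY⟩ := hs.exists_isBase_subset
  have := c.mono B Y (AE.of_subset hBY)
  rw [c.toMatroid_isBase hB, h] at this
  simp at this

theorem not_indep_of_st {Y : Set P} (h : c.st Y = 1) : ¬ c.toMatroid.Indep Y := by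
  rintro (h' | ⟨h', -⟩) <;> simp [h] at h'

theorem indep_or_spanning (Y : Set P) : c.toMatroid.Indep Y ∨ c.toMatroid.Spanning Y := by
  by_cases h : c.Ind Y
  · exact Or.inl h
  · obtain ⟨B, hB, -, hBY⟩ := c.exists_isB_between (Or.inl c.st_empty) (Set.empty_subset Y) h
    exact Or.inr (Matroid.IsBase.spanning_of_superset
      (show c.toMatroid.IsBase B from c.isB_maximal hB) hBY (Set.subset_univ _))

end Coloring

end Vale.Agent.P068
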