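import Mathlib

/-!
Definitions for the infinite matroid intersection and packing/covering conjectures.
Matroids are Mathlib's `Matroid`, whose axioms are those of
Bruhn, Diestel, Kriesell, Pendavingh and Wollan.
-/

namespace Vale.Agent.P068

open Set Cardinal Matroid

/-- `(M, N)` satisfies intersection: some set `J` independent in both has a partition
`J = A ∪ B` with `cl_M(A) ∪ cl_N(B)` equal to the ground set. -/
def SatisfiesIntersection {α : Type} (M N : Matroid α) : Prop :=
  ∃ J A B : Set α, M.Indep J ∧ N.Indep J ∧ A ∪ B = J ∧ Disjoint A B ∧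
    M.closure A ∪ N.closure B = M.E

/-- A packing/covering partition `E = P ⊔ C` for a family of matroids on `E`: pairwise disjoint
`S i ⊆ P` spanning `M i ↾ P`, and `I i ⊆ C` independent in `(M i).C = ((M i)✶ ↾ C)✶`
with union `C`. -/
def HasPackingCoveringPartition {α ι : Type} (E : Set α) (M : ι → Matroid α) : Prop :=
  ∃ (P C : Set α) (S I : ι → Set α), P ∪ C = E ∧ Disjoint P C ∧ (∀ i, S i ⊆ P) ∧
    Pairwise (fun i j => Disjoint (S i) (S j)) ∧ (∀ i, ((M i) ↾ P).Spanning (S i)) ∧
    (∀ i, I i ⊆ C) ∧ (∀ i, (((M i)✶ ↾ C)✶).Indep (I i)) ∧ (⋃ i, I i) = C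

/-- The reaping number equals the continuum: every family of fewer than continuum many infinite
subsets of `ℕ` is split by one set. -/
def SplittingHypothesis : Prop :=
  ∀ F : Set (Set ℕ), #F < Cardinal.continuum → (∀ A ∈ F, A.Infinite) →
    ∃ X : Set ℕ, ∀ A ∈ F, (A ∩ X).Infinite ∧ (A \ X).Infinite

end Vale.Agent.P068
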