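import Vale.Agent.P068.Step

/-!
The finitary partition matroid of pairs along a two-way path of bundles.
-/

namespace Vale.Agent.P068

open Set

/-- The ground type: a vertex of the path (side, position), a port and an index. -/
abbrev Elt : Type := (Bool × ℕ) × (Bool × ℕ)

/-- The partner of an element: the other end of the same edge. -/
def partner : Elt → Elt
  | ((s, n), (true, k)) => ((s, n + 1), (false, k))
  | ((s, n + 1), (false, k)) => ((s, n), (true, k))
  | ((s, 0), (false, k)) => ((!s, 0), (false, k))

theorem partner_partner (e : Elt) : partner (partner e) = e := by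
  obtain ⟨⟨s, n⟩, b, k⟩ := e
  cases b <;> cases n <;> simp [partner]

theorem partner_ne (e : Elt) : partner e ≠ e := by
  obtain ⟨⟨s, n⟩, b, k⟩ := e
  cases b <;> cases n <;> simp [partner]

/-- No pair is contained. -/
def PairFree (I : Set Elt) : Prop := ∀ e ∈ I, partner e ∉ I

theorem PairFree.insert {I : Set Elt} (hI : PairFree I) {x : Elt} (hx : partner x ∉ I) :
    PairFree (insert x I) := by
  rintro e (rfl | he) (h | h)
  · exact partner_ne _ h
  · exact hx h
  · exact hx (by rw [← h, partner_partner]; exact he)
  · exact hI e he h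

/-- The independence data of the partition matroid of pairs. -/
noncomputable def pairsIndep : IndepMatroid Elt :=
  IndepMatroid.ofFinitary univ PairFree
    (fun _ h => h.elim)
    (fun _ _ hJ h e he hp => hJ e (h he) (h hp))
    (by
      intro I B hI hnI hB
      obtain ⟨J, hJ, hIJ, x, hxJ, hxI⟩ : ∃ J, PairFree J ∧ I ⊆ J ∧ ∃ x ∈ J, x ∉ I := by
        by_contra hcon
        refine hnI ⟨hI, fun J hJ hIJ => ?_⟩
        by_contra h
        obtain ⟨x, hxJ, hxI⟩ := Set.not_subset.1 h
        exact hcon ⟨J, hJ, hIJ, x, hxJ, hxI⟩
      have hpxI : partner x ∉ I := fun h => hJ x hxJ (hIJ h)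
      by_cases hxB : x ∈ B
      · exact ⟨x, ⟨hxB, hxI⟩, hI.insert hpxI⟩
      · have hpB : partner x ∈ B := by
          by_contra h
          exact hxB (hB.2 (hB.1.insert h) (Set.subset_insert x B) (Set.mem_insert x B))
        exact ⟨partner x, ⟨hpB, hpxI⟩, hI.insert (by rw [partner_partner]; exact hxI)⟩)
    (fun I h e he hp => h {e, partner e}
      (Set.insert_subset he (Set.singleton_subset_iff.2 hp)) (Set.toFinite _)
      e (Or.inl rfl) (Or.inr rfl))
    (fun _ _ => Set.subset_univ _)

/-- The partition matroid of pairs. -/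
noncomputable def pairs : Matroid Elt := pairsIndep.matroid

theorem pairs_ground : pairs.E = univ := rfl

theorem pairs_indep {I : Set Elt} : pairs.Indep I ↔ PairFree I := Iff.rfl

theorem pairs_finitary : pairs.Finitary := by
  constructor
  intro I h
  rw [pairs_indep]
  intro e he hp
  exact pairs_indep.1 (h {e, partner e}
    (Set.insert_subset he (Set.singleton_subset_iff.2 hp)) (Set.toFinite _))
    e (Or.inl rfl) (Or.inr rfl)

theorem mem_pairs_closure {B : Set Elt} (hB : pairs.Indep B) {e : Elt}
    (he : e ∈ pairs.closure B) : e ∈ B ∨ partner e ∈ B := by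
  by_contra hcon
  push Not at hcon
  have hins : pairs.Indep (insert e B) :=
    pairs_indep.2 ((pairs_indep.1 hB).insert hcon.2)
  exact ((hB.notMem_closure_iff_of_notMem hcon.1 (Set.mem_univ e)).2 hins) he

end Vale.Agent.P068
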