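import Vale.Agent.P068.Build
import Vale.Agent.P068.Pairs

/-!
The pair of matroids and the failure of intersection.
-/

namespace Vale.Agent.P068

open Set Matroid

/-- A uniform matroid keeps an independent non-spanning set independent under insertion. -/
theorem insert_indep_of_uniform {α : Type} {U : Matroid α}
    (hU : ∀ Y ⊆ U.E, U.Indep Y ∨ U.Spanning Y) {I : Set α} (hI : U.Indep I)
    (hs : ¬ U.Spanning I) {x : α} (hx : x ∈ U.E) : U.Indep (insert x I) := by
  rcases hU _ (Set.insert_subset hx hI.subset_ground) with h | h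
  · exact h
  by_contra hn
  by_cases hxI : x ∈ I
  · exact hn (by rwa [Set.insert_eq_of_mem hxI])
  have hcl : x ∈ U.closure I := by
    by_contra hc
    exact hn ((hI.notMem_closure_iff_of_notMem hxI hx).1 hc)
  refine hs ((spanning_iff_closure_eq hI.subset_ground).2 ?_)
  rw [← closure_insert_eq_of_mem_closure hcl, h.closure_eq]

variable (D : Data)

/-- The uniform matroid of the data. -/
noncomputable def Data.V : Matroid Port := D.colour.toMatroid

/-- The matroid at a vertex: `V` on the right, its dual on the left. -/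
noncomputable def Data.at' (v : Bool × ℕ) : Matroid Port :=
  match v.1 with
  | true => D.V
  | false => D.V✶

/-- The first matroid. -/
noncomputable def Data.mat : Matroid Elt := Matroid.sum' D.at'

theorem Data.at_ground (v : Bool × ℕ) : (D.at' v).E = univ := by
  obtain ⟨s, n⟩ := v
  cases s <;> rfl

theorem Data.mat_ground : D.mat.E = univ := by
  ext ⟨v, q⟩
  simp [Data.mat, Data.at_ground]

theorem Data.at_uniform (v : Bool × ℕ) (Y : Set Port) (hY : Y ⊆ (D.at' v).E) :
    (D.at' v).Indep Y ∨ (D.at' v).Spanning Y := by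
  obtain ⟨s, n⟩ := v
  cases s
  · rcases D.colour.indep_or_spanning Yᶜ with h | h
    · refine Or.inr ?_
      show D.V✶.Spanning Y
      rw [spanning_iff_compl_coindep (Set.subset_univ _)]
      show D.V✶.Coindep (univ \ Y)
      rw [dual_coindep_iff, ← Set.compl_eq_univ_sdiff]
      exact h
    · refine Or.inl ?_
      show D.V.Coindep Y
      rw [coindep_iff_compl_spanning (Set.subset_univ _)]
      show D.V.Spanning (univ \ Y)
      rw [← Set.compl_eq_univ_sdiff]
      exact h
  · exact D.colour.indep_or_spanning Y

theorem Data.dual_indep {n : ℕ} {Y : Set Port} (h : (D.at' (false, n)).Indep Y) :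
    D.V.Spanning Yᶜ := by
  have h' : D.V.Coindep Y := h
  rw [Set.compl_eq_univ_sdiff]
  exact h'.compl_spanning

theorem Data.dual_spanning {n : ℕ} {Y : Set Port} (h : (D.at' (false, n)).Spanning Y) :
    D.V.Indep Yᶜ := by
  have h' : D.V✶.Spanning Y := h
  have h'' := h'.compl_coindep
  rw [dual_coindep_iff] at h''
  rw [Set.compl_eq_univ_sdiff]
  exact h''

theorem Data.not_spanning_low {Y : Set Port} {o : Ordinal.{0}} (ho : D.phi (inn Y) = lo o)
    (h : D.phi (inn Y) ≤ D.phi (out Y)ᶜ) : ¬ D.V.Spanning Y :=
  D.colour.not_spanning_of_st (D.low Y ⟨⟨o, ho⟩, h⟩)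

theorem Data.not_indep_high {Y : Set Port} {o : Ordinal.{0}} (ho : D.phi (inn Y) = hi o)
    (h : D.phi (out Y)ᶜ ≤ D.phi (inn Y)) : ¬ D.V.Indep Y :=
  D.colour.not_indep_of_st (D.high Y ⟨⟨o, ho⟩, h⟩)

/-- A spanning sequence along a ray starts in the upper part. -/
theorem Data.spanning_seq (R : ℕ → Set ℕ) (Z : ℕ → Set Port) (hs : ∀ n, D.V.Spanning (Z n))
    (hin : ∀ n, inn (Z n) = R n) (hnext : ∀ n, R (n + 1) ⊆ (out (Z n))ᶜ) :
    ∀ o n, D.phi (R n) ≠ lo o := by
  intro o
  induction o using (wellFounded_lt (α := Ordinal.{0})).induction with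
  | h o ih =>
    intro n hn
    have hlt : D.phi (out (Z n))ᶜ < lo o := by
      by_contra hc
      push Not at hc
      refine D.not_spanning_low (Y := Z n) (o := o) (by rw [hin]; exact hn) ?_ (hs n)
      rw [hin, hn]; exact hc
    have hle : D.phi (R (n + 1)) < lo o := (D.phi_mono _ _ (hnext n)).trans_lt hlt
    rcases lab_cases (D.phi (R (n + 1))) with ⟨q, hq⟩ | ⟨q, hq⟩
    · rw [hq] at hle
      exact ih q (lt_of_not_ge fun hge => not_le_of_gt hle (lo_le_lo.2 hge)) (n + 1) hq
    · rw [hq] at hle
      exact not_hi_le_lo q o hle.le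

/-- An independent sequence along a ray starts in the lower part. -/
theorem Data.indep_seq (R : ℕ → Set ℕ) (Z : ℕ → Set Port) (hs : ∀ n, D.V.Indep (Z n))
    (hin : ∀ n, inn (Z n) = R n) (hnext : ∀ n, (out (Z n))ᶜ ⊆ R (n + 1)) :
    ∀ o n, D.phi (R n) ≠ hi o := by
  intro o
  induction o using (wellFounded_lt (α := Ordinal.{0})).induction with
  | h o ih =>
    intro n hn
    have hlt : hi o < D.phi (out (Z n))ᶜ := by
      by_contra hc
      push Not at hc
      refine D.not_indep_high (Y := Z n) (o := o) (by rw [hin]; exact hn) ?_ (hs n)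
      rw [hin, hn]; exact hc
    have hle : hi o < D.phi (R (n + 1)) := hlt.trans_le (D.phi_mono _ _ (hnext n))
    rcases lab_cases (D.phi (R (n + 1))) with ⟨q, hq⟩ | ⟨q, hq⟩
    · rw [hq] at hle
      exact not_hi_le_lo o q hle.le
    · rw [hq] at hle
      exact ih q (lt_of_not_ge fun hge => not_le_of_gt hle (hi_le_hi.2 hge)) (n + 1) hq

/-- The slice of a set at a vertex. -/
def slice (J : Set Elt) (v : Bool × ℕ) : Set Port := Prod.mk v ⁻¹' J

theorem Data.mat_indep {J : Set Elt} :
    D.mat.Indep J ↔ ∀ v, (D.at' v).Indep (slice J v) := by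
  simp [Data.mat, slice]

theorem Data.not_satisfiesIntersection : ¬ SatisfiesIntersection D.mat pairs := by
  rintro ⟨J, A, B, hJM, hJN, hAB, hdis, hcov⟩
  have hAJ : A ⊆ J := hAB ▸ Set.subset_union_left
  have hBJ : B ⊆ J := hAB ▸ Set.subset_union_right
  have hA : D.mat.Indep A := hJM.subset hAJ
  have hB : pairs.Indep B := hJN.subset hBJ
  have hfree := pairs_indep.1 hJN
  have hJv : ∀ v, (D.at' v).Indep (slice J v) := D.mat_indep.1 hJM
  let full : Bool × ℕ → Prop := fun v => (D.at' v).Spanning (slice A v)
  have hfullJ : ∀ v, full v → (D.at' v).Spanning (slice J v) := fun v hv =>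
    hv.superset (Set.preimage_mono hAJ) (by rw [D.at_ground]; exact Set.subset_univ _)
  have hfullB : ∀ v p, full v → (v, p) ∉ B := by
    intro v p hv hp
    have heq : slice A v = slice J v :=
      (hJv v).eq_of_spanning_subset hv (Set.preimage_mono hAJ)
    have hpA : p ∈ slice A v := by rw [heq]; exact hBJ hp
    exact Set.disjoint_left.1 hdis hpA hp
  have hopen : ∀ v p, ¬ full v →
      (v, p) ∈ J ∨ (partner (v, p) ∈ J ∧ ¬ full (partner (v, p)).1) := by
    intro v p hv
    have : (v, p) ∈ D.mat.closure A ∪ pairs.closure B := by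
      rw [hcov, D.mat_ground]; trivial
    rcases this with h | h
    · refine Or.inl (hAJ ?_)
      by_contra hnA
      have hins : D.mat.Indep (insert (v, p) A) := by
        rw [D.mat_indep]
        intro w
        by_cases hw : w = v
        · subst hw
          have : slice (insert (w, p) A) w = insert p (slice A w) := by
            ext q; simp [slice]
          rw [this]
          exact insert_indep_of_uniform (D.at_uniform w) (D.mat_indep.1 hA w) hv
            (by rw [D.at_ground]; trivial)
        · have : slice (insert (v, p) A) w = slice A w := by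
            ext q; simp [slice, hw]
          rw [this]
          exact D.mat_indep.1 hA w
      exact ((hA.notMem_closure_iff_of_notMem hnA (by rw [D.mat_ground]; trivial)).2 hins) h
    · rcases mem_pairs_closure hB h with h | h
      · exact Or.inl (hBJ h)
      · exact Or.inr ⟨hBJ h, fun hf => hfullB _ _ hf h⟩
  -- facts about neighbours
  have open_out : ∀ s n, ¬ full (s, n) → full (s, n + 1) →
      inn (slice J (s, n + 1)) = ∅ := by
    intro s n h1 h2
    ext k
    simp only [Set.mem_empty_iff_false, iff_false]
    intro hk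
    rcases hopen (s, n) (true, k) h1 with h | ⟨-, h⟩
    · exact hfree _ h hk
    · exact h h2
  have open_in : ∀ s n, full (s, n) → ¬ full (s, n + 1) →
      inn (slice J (s, n + 1)) = univ := by
    intro s n h1 h2
    refine Set.eq_univ_of_forall fun k => ?_
    rcases hopen (s, n + 1) (false, k) h2 with h | ⟨-, h⟩
    · exact h
    · exact absurd h1 h
  have both : ∀ s n, ¬ full (s, n) →
      (out (slice J (s, n)))ᶜ ⊆ inn (slice J (s, n + 1)) := by
    intro s n h1 k hk
    rcases hopen (s, n) (true, k) h1 with h | ⟨h, -⟩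
    · exact absurd h hk
    · exact h
  have disj : ∀ s n, inn (slice J (s, n + 1)) ⊆ (out (slice J (s, n)))ᶜ :=
    fun s n k hk hk' => hfree _ hk' hk
  have hbot : ∀ {Y : Set Port}, inn Y = ∅ → ¬ D.V.Spanning Y := fun {Y} hY =>
    D.not_spanning_low (o := 0) (by rw [hY, D.phi_empty]; rfl)
      (by rw [hY, D.phi_empty]; exact labBot_le _)
  have htop : ∀ {Y : Set Port}, inn Y = univ → ¬ D.V.Indep Y := fun {Y} hY =>
    D.not_indep_high (o := 0) (by rw [hY, D.phi_univ]; rfl)
      (by rw [hY, D.phi_univ]; exact le_labTop _)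
  -- the status is constant on each side
  have const : ∀ s n, (full (s, n + 1) ↔ full (s, n)) := by
    intro s n
    constructor
    · intro h
      by_contra h'
      have he := open_out s n h' h
      cases s
      · refine htop ?_ (D.dual_spanning (hfullJ _ h))
        show (inn (slice J (false, n + 1)))ᶜ = univ
        rw [he, Set.compl_empty]
      · exact hbot he (hfullJ _ h)
    · intro h
      by_contra h'
      have he := open_in s n h h'
      cases s
      · refine hbot ?_ (D.dual_indep (hJv (false, n + 1)))
        show (inn (slice J (false, n + 1)))ᶜ = ∅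
        rw [he, Set.compl_univ]
      · exact htop he (hJv (true, n + 1))
  have all : ∀ s n, (full (s, n) ↔ full (s, 0)) := by
    intro s n
    induction n with
    | zero => exact Iff.rfl
    | succ n ih => exact (const s n).trans ih
  -- the starts of the two sides
  set X := inn (slice J (true, 0)) with hX
  set T := inn (slice J (false, 0)) with hT
  have hXT : X ⊆ Tᶜ := fun k hk hk' => hfree _ hk hk'
  have openX : ¬ full (true, 0) → (full (false, 0) → X = univ) ∧
      (¬ full (false, 0) → Tᶜ ⊆ X) := by
    intro h
    refine ⟨fun hl => Set.eq_univ_of_forall fun k => ?_, fun _ k hk => ?_⟩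
    · rcases hopen (true, 0) (false, k) h with h' | ⟨-, h'⟩
      · exact h'
      · exact absurd hl h'
    · rcases hopen (true, 0) (false, k) h with h' | ⟨h', -⟩
      · exact h'
      · exact absurd h' hk
  have right_full : full (true, 0) → ∀ o, D.phi X ≠ lo o := fun h o =>
    D.spanning_seq (fun n => inn (slice J (true, n))) (fun n => slice J (true, n))
      (fun n => hfullJ _ ((all true n).2 h)) (fun _ => rfl) (disj true) o 0
  have right_open : ¬ full (true, 0) → ∀ o, D.phi X ≠ hi o := fun h o =>
    D.indep_seq (fun n => inn (slice J (true, n))) (fun n => slice J (true, n))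
      (fun n => hJv (true, n)) (fun _ => rfl) (fun n => both true n (fun hf => h ((all true n).1 hf))) o 0
  have left_full : full (false, 0) → ∀ o, D.phi Tᶜ ≠ hi o := fun h o =>
    D.indep_seq (fun n => (inn (slice J (false, n)))ᶜ) (fun n => (slice J (false, n))ᶜ)
      (fun n => D.dual_spanning (hfullJ _ ((all false n).2 h))) (fun _ => rfl)
      (fun n => Set.compl_subset_compl.2 fun k hk hk' => disj false n hk hk') o 0
  have left_open : ¬ full (false, 0) → ∀ o, D.phi Tᶜ ≠ lo o := fun h o =>
    D.spanning_seq (fun n => (inn (slice J (false, n)))ᶜ) (fun n => (slice J (false, n))ᶜ)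
      (fun n => D.dual_indep (hJv (false, n))) (fun _ => rfl)
      (fun n k hk hk' => hk (both false n (fun hf => h ((all false n).1 hf)) hk')) o 0
  by_cases hr : full (true, 0) <;> by_cases hl : full (false, 0)
  · rcases lab_cases (D.phi X) with ⟨o, ho⟩ | ⟨o, ho⟩
    · exact right_full hr o ho
    · rcases lab_cases (D.phi Tᶜ) with ⟨q, hq⟩ | ⟨q, hq⟩
      · have := D.phi_mono _ _ hXT
        rw [ho, hq] at this
        exact not_hi_le_lo o q this
      · exact left_full hl q hq
  · have hX0 : X = ∅ := by
      ext k
      simp only [Set.mem_empty_iff_false, iff_false]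
      intro hk
      rcases hopen (false, 0) (false, k) hl with h | ⟨-, h⟩
      · exact hfree _ h hk
      · exact h hr
    exact right_full hr 0 (by rw [hX0, D.phi_empty]; rfl)
  · exact right_open hr 0 (by rw [(openX hr).1 hl, D.phi_univ]; rfl)
  · have hTX : Tᶜ = X := subset_antisymm ((openX hr).2 hl) hXT
    rcases lab_cases (D.phi X) with ⟨o, ho⟩ | ⟨o, ho⟩
    · exact left_open hl o (by rw [hTX]; exact ho)
    · exact right_open hr o ho

end Vale.Agent.P068
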