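import Vale.Agent.P068.Coloring

/-!
The linear order of labels: an ordinal increasing from the bottom or decreasing from the top.
-/

namespace Vale.Agent.P068

open Set

/-- Labels: lower part a copy of the ordinals, upper part a reversed copy. -/
abbrev Lab : Type 1 := Lex (Ordinal.{0} ⊕ Ordinal.{0}ᵒᵈ)

/-- A label of the lower part. -/
def lo (o : Ordinal.{0}) : Lab := toLex (Sum.inl o)

/-- A label of the upper part. -/
def hi (o : Ordinal.{0}) : Lab := toLex (Sum.inr (OrderDual.toDual o))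

/-- The least label. -/
noncomputable def labBot : Lab := lo 0

/-- The greatest label. -/
noncomputable def labTop : Lab := hi 0

theorem lab_cases (a : Lab) : (∃ o, a = lo o) ∨ ∃ o, a = hi o := by
  rcases h : ofLex a with o | o
  · exact Or.inl ⟨o, by rw [lo, ← h]; rfl⟩
  · exact Or.inr ⟨OrderDual.ofDual o, by rw [hi, OrderDual.toDual_ofDual, ← h]; rfl⟩

@[simp] theorem lo_le_lo {a b : Ordinal.{0}} : lo a ≤ lo b ↔ a ≤ b :=
  Sum.Lex.inl_le_inl_iff

@[simp] theorem hi_le_hi {a b : Ordinal.{0}} : hi a ≤ hi b ↔ b ≤ a :=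
  Sum.Lex.inr_le_inr_iff.trans OrderDual.toDual_le_toDual

@[simp] theorem lo_le_hi (a b : Ordinal.{0}) : lo a ≤ hi b :=
  Sum.Lex.inl_le_inr _ _

@[simp] theorem not_hi_le_lo (a b : Ordinal.{0}) : ¬ hi a ≤ lo b :=
  not_le_of_gt (Sum.Lex.inl_lt_inr _ _)

@[simp] theorem lo_inj {a b : Ordinal.{0}} : lo a = lo b ↔ a = b :=
  ⟨fun h => le_antisymm (lo_le_lo.1 h.le) (lo_le_lo.1 h.ge), fun h => h ▸ rfl⟩

theorem lo_ne_hi (a b : Ordinal.{0}) : lo a ≠ hi b := fun h => not_hi_le_lo b a h.ge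

theorem labBot_le (a : Lab) : labBot ≤ a := by
  rcases lab_cases a with ⟨o, rfl⟩ | ⟨o, rfl⟩ <;> simp [labBot]

theorem le_labTop (a : Lab) : a ≤ labTop := by
  rcases lab_cases a with ⟨o, rfl⟩ | ⟨o, rfl⟩ <;> simp [labTop]

/-- Small sets of labels have least upper bounds. -/
theorem exists_lub {ι : Type} (g : ι → Lab) (A : Set Lab) (hA : A ⊆ Set.range g)
    (hne : A.Nonempty) : ∃ u, (∀ a ∈ A, a ≤ u) ∧ ∀ w, (∀ a ∈ A, a ≤ w) → u ≤ w := by
  by_cases h : ∃ o, hi o ∈ A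
  · have hO : Set.Nonempty {o | hi o ∈ A} := h
    refine ⟨hi (wellFounded_lt.min _ hO), fun a ha => ?_, fun w hw => hw _ ?_⟩
    · rcases lab_cases a with ⟨o, rfl⟩ | ⟨o, rfl⟩
      · simp
      · exact hi_le_hi.2 (not_lt.1 (wellFounded_lt.not_lt_min {o | hi o ∈ A} ha))
    · exact wellFounded_lt.min_mem {o | hi o ∈ A} hO
  · push Not at h
    set O := {o | lo o ∈ A} with hOdef
    have hO : O.Nonempty := by
      obtain ⟨a, ha⟩ := hne
      rcases lab_cases a with ⟨o, rfl⟩ | ⟨o, rfl⟩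
      · exact ⟨o, ha⟩
      · exact absurd ha (h o)
    have hbdd : BddAbove O := by
      let g' : ι → Ordinal.{0} := fun i => Sum.elim id (fun _ => 0) (ofLex (g i))
      refine (Ordinal.bddAbove_range g').mono fun o ho => ?_
      obtain ⟨i, hi⟩ := hA ho
      exact ⟨i, by simp [g', hi, lo]⟩
    refine ⟨lo (sSup O), fun a ha => ?_, fun w hw => ?_⟩
    · rcases lab_cases a with ⟨o, rfl⟩ | ⟨o, rfl⟩
      · exact lo_le_lo.2 (le_csSup hbdd ha)
      · exact absurd ha (h o)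
    · rcases lab_cases w with ⟨o, rfl⟩ | ⟨o, rfl⟩
      · exact lo_le_lo.2 (csSup_le hO fun b hb => lo_le_lo.1 (hw _ hb))
      · simp

/-- `a` and `b` force the colour `-1`. -/
def FLow (a b : Lab) : Prop := (∃ o, a = lo o) ∧ a ≤ b

/-- `a` and `b` force the colour `1`. -/
def FHigh (a b : Lab) : Prop := (∃ o, a = hi o) ∧ b ≤ a

theorem not_flow_and_fhigh {a b : Lab} (h₁ : FLow a b) (h₂ : FHigh a b) : False := by
  obtain ⟨o, rfl⟩ := h₁.1
  obtain ⟨q, hq⟩ := h₂.1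
  exact lo_ne_hi o q hq

theorem FLow.mono {a b a' b' : Lab} (h : FLow a b) (ha : a' ≤ a) (hb : b ≤ b') :
    FLow a' b' := by
  obtain ⟨⟨o, rfl⟩, hab⟩ := h
  rcases lab_cases a' with ⟨q, rfl⟩ | ⟨q, rfl⟩
  · exact ⟨⟨q, rfl⟩, ha.trans (hab.trans hb)⟩
  · simp at ha

theorem FHigh.mono {a b a' b' : Lab} (h : FHigh a b) (ha : a ≤ a') (hb : b' ≤ b) :
    FHigh a' b' := by
  obtain ⟨⟨o, rfl⟩, hab⟩ := h
  rcases lab_cases a' with ⟨q, rfl⟩ | ⟨q, rfl⟩
  · simp at ha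
  · exact ⟨⟨q, rfl⟩, hb.trans (hab.trans ha)⟩

/-- Labels for an intermediate base class. -/
theorem exists_free_labels {a a' b b' : Lab} (ha : a ≤ a') (hb : b' ≤ b)
    (h1 : ¬ FHigh a b) (h2 : ¬ FLow a' b') :
    ∃ x y, a ≤ x ∧ x ≤ a' ∧ b' ≤ y ∧ y ≤ b ∧ ¬ FLow x y ∧ ¬ FHigh x y := by
  rcases lab_cases a with ⟨p, rfl⟩ | ⟨p, rfl⟩
  · rcases lab_cases a' with ⟨p', rfl⟩ | ⟨p', rfl⟩
    · exact ⟨lo p', b', ha, le_rfl, le_rfl, hb, h2,
        fun h => by obtain ⟨q, hq⟩ := h.1; exact lo_ne_hi p' q hq⟩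
    · rcases lab_cases b' with ⟨q, rfl⟩ | ⟨q, rfl⟩
      · refine ⟨lo (max p (Order.succ q)), lo q, lo_le_lo.2 (le_max_left _ _), lo_le_hi _ _,
          le_rfl, hb, ?_, ?_⟩
        · rintro ⟨-, h⟩
          exact absurd ((le_max_right p _).trans (lo_le_lo.1 h)) (not_le_of_gt (Order.lt_succ q))
        · intro h; obtain ⟨r, hr⟩ := h.1; exact lo_ne_hi _ r hr
      · refine ⟨hi (max p' (Order.succ q)), hi q, lo_le_hi _ _, hi_le_hi.2 (le_max_left _ _),
          le_rfl, hb, ?_, ?_⟩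
        · intro h; obtain ⟨r, hr⟩ := h.1; exact lo_ne_hi r _ hr.symm
        · rintro ⟨-, h⟩
          exact absurd ((le_max_right p' _).trans (hi_le_hi.1 h)) (not_le_of_gt (Order.lt_succ q))
  · exact ⟨hi p, b, le_rfl, ha, hb, le_rfl,
      fun h => by obtain ⟨q, hq⟩ := h.1; exact lo_ne_hi q p hq.symm, h1⟩

end Vale.Agent.P068
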