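import Vale.Agent.P068.Defs

/-!
A packing/covering partition of `(M, N✶)` gives intersection for `(M, N)`.
-/

namespace Vale.Agent.P068

open Set Matroid

theorem satisfiesIntersection_of_partition {α : Type} (M N : Matroid α)
    (hME : M.E = univ) (hNE : N.E = univ)
    (h : HasPackingCoveringPartition univ (fun b : Bool => if b then M else N✶)) :
    SatisfiesIntersection M N := by
  obtain ⟨P, C, S, I, hPC, hd, hSP, hSd, hS, hIC, hI, hIU⟩ := h
  have hC : C = Pᶜ := by
    ext x
    exact ⟨fun hx hx' => Set.disjoint_left.1 hd hx' hx,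
      fun hx => ((hPC.symm.subset (Set.mem_univ x))).resolve_left hx⟩
  have hPsub : ∀ {K : Matroid α}, K.E = univ → ∀ {Z : Set α}, Z ⊆ K.E :=
    fun hK _ => hK ▸ Set.subset_univ _
  have key : ∀ K : Matroid α, K.E = univ → (K✶ ↾ C)✶ = K ／ P := by
    intro K hK
    have : K✶ ↾ C = K✶ ＼ P := by
      show K✶ ↾ C = K✶ ↾ (K✶.E \ P)
      rw [dual_ground, hK, hC, Set.compl_eq_univ_sdiff]
    rw [this, dual_delete, dual_dual]
  have hSM : (M ↾ P).Spanning (S true) := by simpa using hS true
  have hSN : (N✶ ↾ P).Spanning (S false) := by simpa using hS false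
  have hIM : (M ／ P).Indep (I true) := by
    rw [← key M hME]; simpa using hI true
  have hIN : (N✶ ／ P).Indep (I false) := by
    rw [← key N✶ (by rw [dual_ground]; exact hNE)]; simpa using hI false
  -- the part in `P`
  obtain ⟨B, hB, hBS⟩ := hSM.exists_isBase_subset
  have hBb : M.IsBasis B P := (isBase_restrict_iff (hPsub hME)).1 hB
  have hBP : B ⊆ P := hBS.trans (hSP true)
  have hclB : P ⊆ M.closure B := hBb.subset_closure
  -- the part in `C`
  set J₀ := C \ I false with hJ₀
  have hJ₀sp : (N ↾ C).Spanning J₀ := by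
    have he : N✶ ／ P = (N ↾ C)✶ := by
      have : N ↾ C = N ＼ P := by
        show N ↾ C = N ↾ (N.E \ P)
        rw [hNE, hC, Set.compl_eq_univ_sdiff]
      rw [this, dual_delete]
    rw [he] at hIN
    have hco : (N ↾ C).Coindep (I false) := hIN
    simpa [hJ₀] using hco.compl_spanning
  obtain ⟨J', hJ', hJ's⟩ := hJ₀sp.exists_isBase_subset
  have hJ'b : N.IsBasis J' C := (isBase_restrict_iff (hPsub hNE)).1 hJ'
  have hJ'I : J' ⊆ I true := by
    intro x hx
    have hxC : x ∈ C := (hJ's hx).1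
    rw [← hIU, Set.mem_iUnion] at hxC
    obtain ⟨b, hb⟩ := hxC
    cases b
    · exact absurd hb (hJ's hx).2
    · exact hb
  have hJ'C : J' ⊆ C := fun x hx => (hJ's hx).1
  -- independence in `M`
  have hM1 : M.Indep (J' ∪ B) :=
    (hBb.contract_indep_iff.1 (hIM.subset hJ'I)).1
  -- independence in `N`
  have hco : (N✶ ↾ P).Coindep (P \ S false) := by
    simpa using hSN.compl_coindep
  have he2 : (N✶ ↾ P)✶ = N ／ C := by
    have : N✶ ↾ P = N✶ ＼ C := by
      show N✶ ↾ P = N✶ ↾ (N✶.E \ C)
      rw [dual_ground, hNE, hC, ← Set.compl_eq_univ_sdiff, compl_compl]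
    rw [this, dual_delete, dual_dual]
  have hBN : (N ／ C).Indep B := by
    have h1 : (N✶ ↾ P)✶.Indep (P \ S false) := hco
    rw [he2] at h1
    refine h1.subset fun x hx => ⟨hBP hx, fun hxS => ?_⟩
    exact Set.disjoint_left.1 (hSd (show true ≠ false by decide)) (hBS hx) hxS
  have hN1 : N.Indep (B ∪ J') := (hJ'b.contract_indep_iff.1 hBN).1
  refine ⟨B ∪ J', B, J', by rwa [Set.union_comm], hN1, rfl, hd.mono hBP hJ'C, ?_⟩
  rw [hME]
  refine Set.eq_univ_of_forall fun x => ?_
  rcases hPC.symm.subset (Set.mem_univ x) with hx | hx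
  · exact Or.inl (hclB hx)
  · exact Or.inr (hJ'b.subset_closure hx)

end Vale.Agent.P068
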