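import Vale.Agent.P068.Defs

/-!
The continuum hypothesis implies the splitting hypothesis.
-/

namespace Vale.Agent.P068

open Set Cardinal

theorem exists_splitter (A : ℕ → Set ℕ) (hA : ∀ n, (A n).Infinite) :
    ∃ X : Set ℕ, ∀ n, (A n ∩ X).Infinite ∧ (A n \ X).Infinite := by
  have h : ∀ m b : ℕ, ∃ x ∈ A (Nat.unpair (m / 2)).1, b < x :=
    fun m b => (hA _).exists_gt b
  choose g hg hgb using h
  obtain ⟨f, hf, hfA⟩ : ∃ f : ℕ → ℕ,
      StrictMono f ∧ ∀ m, f m ∈ A (Nat.unpair (m / 2)).1 := by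
    refine ⟨fun m => Nat.rec (g 0 0) (fun k prev => g (k + 1) prev) m,
      strictMono_nat_of_lt_succ fun m => hgb (m + 1) _, fun m => ?_⟩
    cases m with
    | zero => exact hg 0 0
    | succ k => exact hg (k + 1) _
  have hpair : ∀ n, Function.Injective (fun j => Nat.pair n j) :=
    fun n a b hab => (Nat.pair_eq_pair.1 hab).2
  refine ⟨f '' {m | m % 2 = 0}, fun n => ⟨?_, ?_⟩⟩
  · refine (Set.infinite_range_of_injective (f := fun j => f (2 * Nat.pair n j))
      (fun a b hab => hpair n (by simp only at hab ⊢; have := hf.injective hab; omega))).mono ?_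
    rintro _ ⟨j, rfl⟩
    refine ⟨?_, ⟨2 * Nat.pair n j, by simp, rfl⟩⟩
    simpa using hfA (2 * Nat.pair n j)
  · refine (Set.infinite_range_of_injective (f := fun j => f (2 * Nat.pair n j + 1))
      (fun a b hab => hpair n (by simp only at hab ⊢; have := hf.injective hab; omega))).mono ?_
    rintro _ ⟨j, rfl⟩
    refine ⟨?_, ?_⟩
    · have := hfA (2 * Nat.pair n j + 1)
      rwa [show (2 * Nat.pair n j + 1) / 2 = Nat.pair n j by omega, Nat.unpair_pair] at this
    · rintro ⟨m, hm, hme⟩
      simp only at hme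
      have := hf.injective hme
      simp only [Set.mem_ofPred_eq] at hm
      omega

theorem splittingHypothesis_of_ch (h : Cardinal.continuum.{0} = Cardinal.aleph 1) :
    SplittingHypothesis := by
  intro F hF hinf
  have hc : F.Countable := by
    rw [← Cardinal.le_aleph0_iff_set_countable, ← Order.lt_succ_iff]
    rwa [h, ← Cardinal.succ_aleph0] at hF
  rcases F.eq_empty_or_nonempty with rfl | hne
  · exact ⟨∅, fun A hA => hA.elim⟩
  · obtain ⟨A, rfl⟩ := hc.exists_eq_range hne
    obtain ⟨X, hX⟩ := exists_splitter A fun n => hinf _ ⟨n, rfl⟩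
    exact ⟨X, by rintro _ ⟨n, rfl⟩; exact hX n⟩

end Vale.Agent.P068
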