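import Vale.Agent.P068.Label

/-!
Partial labellings and colourings, and their one-step extensions.
-/

namespace Vale.Agent.P068

open Set Cardinal

/-- A vertex has two ports, each a copy of `ℕ`. -/
abbrev Port : Type := Bool × ℕ

/-- The part in the first port. -/
def inn (Y : Set Port) : Set ℕ := {k | (false, k) ∈ Y}

/-- The part in the second port. -/
def out (Y : Set Port) : Set ℕ := {k | (true, k) ∈ Y}

theorem ae_inn {X Y : Set Port} (h : AE X Y) : AE (inn X) (inn Y) :=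
  Set.Finite.of_finite_image (f := fun k => (false, k))
    (h.subset (by rintro _ ⟨k, hk, rfl⟩; exact ⟨hk.1, hk.2⟩))
    (fun a _ b _ hab => (Prod.ext_iff.1 hab).2)

theorem ae_out {X Y : Set Port} (h : AE X Y) : AE (out X) (out Y) :=
  Set.Finite.of_finite_image (f := fun k => (true, k))
    (h.subset (by rintro _ ⟨k, hk, rfl⟩; exact ⟨hk.1, hk.2⟩))
    (fun a _ b _ hab => (Prod.ext_iff.1 hab).2)

theorem ae_port {X Y : Set Port} (h₁ : AE (inn X) (inn Y)) (h₂ : AE (out X) (out Y)) :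
    AE X Y := by
  refine ((h₁.image (fun k => (false, k))).union (h₂.image (fun k => (true, k)))).subset ?_
  rintro ⟨b, k⟩ hk
  cases b
  · exact Or.inl ⟨k, ⟨hk.1, hk.2⟩, rfl⟩
  · exact Or.inr ⟨k, ⟨hk.1, hk.2⟩, rfl⟩

/-- A state of the construction. -/
structure State : Type 1 where
  lab : Set (Set ℕ × Lab)
  col : Set (Set Port × SignType)

/-- The labelled sets. -/
def State.dom (S : State) : Set (Set ℕ) := Prod.fst '' S.lab

/-- Extension of states. -/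
def State.Le (S T : State) : Prop := S.lab ⊆ T.lab ∧ S.col ⊆ T.col

/-- Consistency of a state. -/
structure Good (S : State) : Prop where
  bot_mem : ((∅ : Set ℕ), labBot) ∈ S.lab
  top_mem : ((univ : Set ℕ), labTop) ∈ S.lab
  lab_mono : ∀ p ∈ S.lab, ∀ q ∈ S.lab, AE p.1 q.1 → p.2 ≤ q.2
  col_mono : ∀ p ∈ S.col, ∀ q ∈ S.col, AE p.1 q.1 → p.2 ≤ q.2
  col_anti : ∀ p ∈ S.col, ∀ q ∈ S.col, p.2 = 0 → q.2 = 0 → AE p.1 q.1 → AE q.1 p.1
  col_lab : ∀ p ∈ S.col, ∃ a b, (inn p.1, a) ∈ S.lab ∧ ((out p.1)ᶜ, b) ∈ S.lab ∧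
    (FLow a b → p.2 = -1) ∧ (FHigh a b → p.2 = 1)

theorem Good.lab_unique {S : State} (h : Good S) {X : Set ℕ} {a b : Lab}
    (ha : (X, a) ∈ S.lab) (hb : (X, b) ∈ S.lab) : a = b :=
  le_antisymm (h.lab_mono _ ha _ hb (AE.refl X)) (h.lab_mono _ hb _ ha (AE.refl X))

theorem Good.col_unique {S : State} (h : Good S) {Y : Set Port} {s t : SignType}
    (hs : (Y, s) ∈ S.col) (ht : (Y, t) ∈ S.col) : s = t :=
  le_antisymm (h.col_mono _ hs _ ht (AE.refl Y)) (h.col_mono _ ht _ hs (AE.refl Y))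

/-- `T` extends `S` consistently with finitely many new labelled sets. -/
def Ext (S T : State) : Prop :=
  Good T ∧ S.Le T ∧ ∃ G : Finset (Set ℕ), T.dom ⊆ S.dom ∪ ↑G

theorem Ext.refl {S : State} (h : Good S) : Ext S S :=
  ⟨h, ⟨subset_rfl, subset_rfl⟩, ∅, by simp⟩

open Classical in
theorem Ext.trans {S T U : State} (h₁ : Ext S T) (h₂ : Ext T U) : Ext S U := by
  obtain ⟨-, ⟨a₁, b₁⟩, G₁, hG₁⟩ := h₁
  obtain ⟨hU, ⟨a₂, b₂⟩, G₂, hG₂⟩ := h₂
  refine ⟨hU, ⟨a₁.trans a₂, b₁.trans b₂⟩, G₁ ∪ G₂, fun x hx => ?_⟩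
  rcases hG₂ hx with h | h
  · rcases hG₁ h with h | h
    · exact Or.inl h
    · exact Or.inr (Finset.mem_union_left _ h)
  · exact Or.inr (Finset.mem_union_right _ h)

theorem insertLab {S : State} (h : Good S) (X : Set ℕ) (a : Lab)
    (hlo : ∀ p ∈ S.lab, AE p.1 X → p.2 ≤ a) (hhi : ∀ p ∈ S.lab, AE X p.1 → a ≤ p.2) :
    Ext S ⟨insert (X, a) S.lab, S.col⟩ := by
  refine ⟨⟨Or.inr h.bot_mem, Or.inr h.top_mem, ?_, h.col_mono, h.col_anti, ?_⟩,
    ⟨Set.subset_insert _ _, subset_rfl⟩, {X}, ?_⟩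
  · rintro p (rfl | hp) q (rfl | hq) hpq
    · exact le_rfl
    · exact hhi q hq hpq
    · exact hlo p hp hpq
    · exact h.lab_mono p hp q hq hpq
  · intro p hp
    obtain ⟨x, y, hx, hy, h1, h2⟩ := h.col_lab p hp
    exact ⟨x, y, Or.inr hx, Or.inr hy, h1, h2⟩
  · rintro z ⟨p, (rfl | hp), rfl⟩
    · exact Or.inr (by simp)
    · exact Or.inl ⟨p, hp, rfl⟩

theorem exists_label {S : State} (h : Good S) (X : Set ℕ) :
    ∃ T a, Ext S T ∧ (X, a) ∈ T.lab := by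
  classical
  let g : Set ℕ → Lab := fun Y => if hY : ∃ a, (Y, a) ∈ S.lab then hY.choose else labBot
  set A := {a | ∃ Y, (Y, a) ∈ S.lab ∧ AE Y X} with hA
  have hsub : A ⊆ Set.range g := by
    rintro a ⟨Y, hY, -⟩
    have hex : ∃ b, (Y, b) ∈ S.lab := ⟨a, hY⟩
    exact ⟨Y, by simp only [g, dif_pos hex]; exact h.lab_unique hex.choose_spec hY⟩
  obtain ⟨u, hu, hu'⟩ :=
    exists_lub g A hsub ⟨labBot, ∅, h.bot_mem, AE.of_subset (Set.empty_subset X)⟩
  refine ⟨_, u, insertLab h X u (fun p hp hpX => hu _ ⟨p.1, hp, hpX⟩) ?_, Or.inl rfl⟩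
  intro p hp hXp
  refine hu' _ ?_
  rintro b ⟨Y, hY, hYX⟩
  exact h.lab_mono _ hY _ hp (hYX.trans hXp)

theorem insertCol {S : State} (h : Good S) (Y : Set Port) (s : SignType)
    (hlo : ∀ p ∈ S.col, AE p.1 Y → p.2 ≤ s) (hhi : ∀ p ∈ S.col, AE Y p.1 → s ≤ p.2)
    (hanti₁ : s = 0 → ∀ p ∈ S.col, p.2 = 0 → AE p.1 Y → AE Y p.1)
    (hanti₂ : s = 0 → ∀ p ∈ S.col, p.2 = 0 → AE Y p.1 → AE p.1 Y)
    {a b : Lab} (ha : (inn Y, a) ∈ S.lab) (hb : ((out Y)ᶜ, b) ∈ S.lab)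
    (hl : FLow a b → s = -1) (hh : FHigh a b → s = 1) :
    Ext S ⟨S.lab, insert (Y, s) S.col⟩ := by
  refine ⟨⟨h.bot_mem, h.top_mem, h.lab_mono, ?_, ?_, ?_⟩,
    ⟨subset_rfl, Set.subset_insert _ _⟩, ∅, by simp [State.dom]⟩
  · rintro p (rfl | hp) q (rfl | hq) hpq
    · exact le_rfl
    · exact hhi q hq hpq
    · exact hlo p hp hpq
    · exact h.col_mono p hp q hq hpq
  · rintro p (rfl | hp) q (rfl | hq) h1 h2 hpq
    · exact hpq
    · exact hanti₂ h1 q hq h2 hpq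
    · exact hanti₁ h2 p hp h1 hpq
    · exact h.col_anti p hp q hq h1 h2 hpq
  · rintro p (rfl | hp)
    · exact ⟨a, b, ha, hb, hl, hh⟩
    · exact h.col_lab p hp

theorem sign_le_neg_one {s : SignType} (h : s ≤ -1) : s = -1 := by
  revert h; cases s <;> decide

theorem sign_one_le {s : SignType} (h : 1 ≤ s) : s = 1 := by
  revert h; cases s <;> decide

theorem sign_between {s : SignType} (h₁ : 0 ≤ s) (h₂ : s ≤ 0) : s = 0 :=
  le_antisymm h₂ h₁

theorem exists_colour {S : State} (h : Good S) (Y : Set Port) :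
    ∃ T s, Ext S T ∧ (Y, s) ∈ T.col := by
  classical
  obtain ⟨T₁, a, h₁, ha⟩ := exists_label h (inn Y)
  obtain ⟨T, b, h₂, hb⟩ := exists_label h₁.1 (out Y)ᶜ
  have hT := h₂.1
  have ha' : (inn Y, a) ∈ T.lab := h₂.2.1.1 ha
  suffices ∃ U s, Ext T U ∧ (Y, s) ∈ U.col by
    obtain ⟨U, s, hU, hY⟩ := this
    exact ⟨U, s, (h₁.trans h₂).trans hU, hY⟩
  by_cases hex : ∃ p ∈ T.col, AE p.1 Y ∧ AE Y p.1
  · obtain ⟨p, hp, hpY, hYp⟩ := hex
    obtain ⟨x, y, hx, hy, hxy1, hxy2⟩ := hT.col_lab p hp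
    have hax : a = x := le_antisymm (hT.lab_mono _ ha' _ hx (ae_inn hYp))
      (hT.lab_mono _ hx _ ha' (ae_inn hpY))
    have hby : b = y := le_antisymm (hT.lab_mono _ hb _ hy (ae_out hpY).compl)
      (hT.lab_mono _ hy _ hb (ae_out hYp).compl)
    refine ⟨_, p.2, insertCol hT Y p.2 (fun q hq hqY => hT.col_mono q hq p hp (hqY.trans hYp))
      (fun q hq hqY => hT.col_mono p hp q hq (hpY.trans hqY))
      (fun h0 q hq h0q hqY => hYp.trans (hT.col_anti q hq p hp h0q h0 (hqY.trans hYp)))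
      (fun h0 q hq h0q hqY => (hT.col_anti p hp q hq h0 h0q (hpY.trans hqY)).trans hpY)
      ha' hb (hax ▸ hby ▸ hxy1) (hax ▸ hby ▸ hxy2), Or.inl rfl⟩
  · push Not at hex
    have mono : ∀ p ∈ T.col, ∃ x y, (inn p.1, x) ∈ T.lab ∧ ((out p.1)ᶜ, y) ∈ T.lab ∧
        (FLow x y → p.2 = -1) ∧ (FHigh x y → p.2 = 1) := hT.col_lab
    have hne0 : ∀ {s : SignType}, s ≠ 0 →
        (s = 0 → ∀ p ∈ T.col, p.2 = 0 → AE p.1 Y → AE Y p.1) ∧
        (s = 0 → ∀ p ∈ T.col, p.2 = 0 → AE Y p.1 → AE p.1 Y) :=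
      fun hs => ⟨fun h0 => absurd h0 hs, fun h0 => absurd h0 hs⟩
    by_cases hl : FLow a b
    · refine ⟨_, -1, insertCol hT Y (-1) (fun p hp hpY => ?_) (fun p _ _ => ?_)
        (hne0 (by decide)).1 (hne0 (by decide)).2 ha' hb (fun _ => rfl)
        (fun hh => (not_flow_and_fhigh hl hh).elim), Or.inl rfl⟩
      · obtain ⟨x, y, hx, hy, hxy, -⟩ := mono p hp
        exact (hxy (hl.mono (hT.lab_mono _ hx _ ha' (ae_inn hpY))
          (hT.lab_mono _ hb _ hy (ae_out hpY).compl))).le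
      · generalize p.2 = s; cases s <;> decide
    by_cases hh : FHigh a b
    · refine ⟨_, 1, insertCol hT Y 1 (fun p _ _ => ?_) (fun p hp hYp => ?_)
        (hne0 (by decide)).1 (hne0 (by decide)).2 ha' hb (fun h' => absurd h' hl)
        (fun _ => rfl), Or.inl rfl⟩
      · generalize p.2 = s; cases s <;> decide
      · obtain ⟨x, y, hx, hy, -, hxy⟩ := mono p hp
        exact (hxy (hh.mono (hT.lab_mono _ ha' _ hx (ae_inn hYp))
          (hT.lab_mono _ hy _ hb (ae_out hYp).compl))).ge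
    by_cases hab : ∃ p ∈ T.col, 0 ≤ p.2 ∧ AE p.1 Y
    · obtain ⟨p, hp, hp0, hpY⟩ := hab
      refine ⟨_, 1, insertCol hT Y 1 (fun q _ _ => ?_) (fun q hq hYq => ?_)
        (hne0 (by decide)).1 (hne0 (by decide)).2 ha' hb (fun h' => absurd h' hl)
        (fun h' => absurd h' hh), Or.inl rfl⟩
      · generalize q.2 = s; cases s <;> decide
      · have hle := hT.col_mono p hp q hq (hpY.trans hYq)
        by_contra hcon
        have hq0 : q.2 ≤ 0 := by revert hcon; generalize q.2 = s; cases s <;> decide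
        have hq' := sign_between (hp0.trans hle) hq0
        have hp' := sign_between hp0 (hle.trans hq0)
        exact hex p hp hpY (hYq.trans (hT.col_anti p hp q hq hp' hq' (hpY.trans hYq)))
    · push Not at hab
      refine ⟨_, -1, insertCol hT Y (-1) (fun q hq hqY => ?_) (fun q _ _ => ?_)
        (hne0 (by decide)).1 (hne0 (by decide)).2 ha' hb (fun _ => rfl)
        (fun h' => absurd h' hh), Or.inl rfl⟩
      · by_contra hcon
        refine hab q hq ?_ hqY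
        revert hcon; generalize q.2 = s; cases s <;> decide
      · generalize q.2 = s; cases s <;> decide

/-- Generic interpolation from the splitting hypothesis. -/
theorem exists_between (hH : SplittingHypothesis) {p q : Set ℕ} (hpq : AE p q)
    (F : Set (Set ℕ)) (hF : #F < Cardinal.continuum) :
    ∃ R, AE p R ∧ AE R q ∧ (∀ w ∈ F, AE w R → AE w p) ∧ (∀ w ∈ F, AE R w → AE q w) := by
  set d := q \ p with hd
  set F' := {A ∈ ((fun w => d ∩ w) '' F) ∪ ((fun w => d \ w) '' F) | A.Infinite} with hF'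
  have hc : #F' < Cardinal.continuum := by
    refine ((Cardinal.mk_le_mk_of_subset (Set.sep_subset _ _)).trans
      (Cardinal.mk_union_le _ _)).trans_lt ?_
    exact Cardinal.add_lt_of_lt Cardinal.aleph0_le_continuum
      (Cardinal.mk_image_le.trans_lt hF) (Cardinal.mk_image_le.trans_lt hF)
  obtain ⟨X, hX⟩ := hH F' hc fun A hA => hA.2
  refine ⟨(p ∩ q) ∪ (X ∩ d), ?_, AE.of_subset ?_, fun w hw hwR => ?_, fun w hw hRw => ?_⟩
  · refine Set.Finite.subset hpq ?_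
    rintro x ⟨hx, hxn⟩
    exact ⟨hx, fun hq => hxn (Or.inl ⟨hx, hq⟩)⟩
  · rintro x (⟨-, hx⟩ | ⟨-, hx, -⟩) <;> exact hx
  · by_contra hcon
    have hinf : (d ∩ w).Infinite := by
      intro hfin
      refine hcon ((hfin.union hwR).subset ?_)
      rintro x ⟨hxw, hxp⟩
      by_cases hxR : x ∈ (p ∩ q) ∪ (X ∩ d)
      · rcases hxR with ⟨h, -⟩ | ⟨-, h⟩
        · exact absurd h hxp
        · exact Or.inl ⟨h, hxw⟩
      · exact Or.inr ⟨hxw, hxR⟩
    refine ((hX _ ⟨Or.inl ⟨w, hw, rfl⟩, hinf⟩).2.mono ?_) hwR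
    rintro x ⟨⟨hxd, hxw⟩, hxX⟩
    refine ⟨hxw, ?_⟩
    rintro (⟨h, -⟩ | ⟨h, -⟩)
    · exact hxd.2 h
    · exact hxX h
  · by_contra hcon
    have hinf : (d \ w).Infinite := by
      intro hfin
      refine hcon ((hfin.union hRw).subset ?_)
      rintro x ⟨hxq, hxw⟩
      by_cases hxp : x ∈ p
      · exact Or.inr ⟨Or.inl ⟨hxp, hxq⟩, hxw⟩
      · exact Or.inl ⟨⟨hxq, hxp⟩, hxw⟩
    refine ((hX _ ⟨Or.inr ⟨w, hw, rfl⟩, hinf⟩).1.mono ?_) hRw
    rintro x ⟨⟨hxd, hxw⟩, hxX⟩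
    exact ⟨Or.inr ⟨hxX, hxd⟩, hxw⟩

/-- What is done at the step of a pair. -/
def Done (T : State) (A Z : Set Port) : Prop :=
  ∃ s t, (A, s) ∈ T.col ∧ (Z, t) ∈ T.col ∧
    (s = -1 → t = 1 → AE A Z → ∃ B, (B, (0 : SignType)) ∈ T.col ∧ AE A B ∧ AE B Z)

theorem exists_step (hH : SplittingHypothesis) {S : State} (h : Good S)
    (hS : #S.dom < Cardinal.continuum) (A Z : Set Port) :
    ∃ T, Ext S T ∧ Done T A Z := by
  classical
  obtain ⟨T₁, s, h₁, hA₁⟩ := exists_colour h A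
  obtain ⟨T, t, h₂, hZ⟩ := exists_colour h₁.1 Z
  have hA : (A, s) ∈ T.col := h₂.2.1.2 hA₁
  have hT := h₂.1
  by_cases hneed : s = -1 ∧ t = 1 ∧ AE A Z
  swap
  · exact ⟨T, h₁.trans h₂, s, t, hA, hZ, fun a b c => absurd ⟨a, b, c⟩ hneed⟩
  obtain ⟨rfl, rfl, hAZ⟩ := hneed
  obtain ⟨a, b, ha, hb, -, hAh⟩ := hT.col_lab _ hA
  obtain ⟨a', b', ha', hb', hZl, -⟩ := hT.col_lab _ hZ
  have hTd : #T.dom < Cardinal.continuum := by
    obtain ⟨-, -, G, hG⟩ := h₁.trans h₂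
    refine ((Cardinal.mk_le_mk_of_subset hG).trans (Cardinal.mk_union_le _ _)).trans_lt ?_
    exact Cardinal.add_lt_of_lt Cardinal.aleph0_le_continuum hS
      (G.finite_toSet.lt_aleph0.trans_le Cardinal.aleph0_le_continuum)
  obtain ⟨R, hpR, hRq, hR₁, hR₂⟩ := exists_between hH (ae_inn hAZ) T.dom hTd
  have hF' : #(insert R T.dom : Set (Set ℕ)) < Cardinal.continuum := by
    refine Cardinal.mk_insert_le.trans_lt ?_
    exact Cardinal.add_lt_of_lt Cardinal.aleph0_le_continuum hTd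
      (Cardinal.one_lt_aleph0.trans_le Cardinal.aleph0_le_continuum)
  obtain ⟨R', hpR', hRq', hR'₁, hR'₂⟩ := exists_between hH (ae_out hAZ).compl _ hF'
  obtain ⟨x, y, hax, hxa, hby, hyb, hfl, hfh⟩ :=
    exists_free_labels (hT.lab_mono _ ha _ ha' (ae_inn hAZ))
      (hT.lab_mono _ hb' _ hb (ae_out hAZ).compl)
      (fun hh => absurd (hAh hh) (show ¬ ((-1 : SignType) = 1) by decide))
      (fun hl => absurd (hZl hl) (show ¬ ((1 : SignType) = -1) by decide))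
  have e₁ : Ext T ⟨insert (R, x) T.lab, T.col⟩ := insertLab hT R x
    (fun p hp hpR' => (hT.lab_mono _ hp _ ha (hR₁ _ ⟨p, hp, rfl⟩ hpR')).trans hax)
    (fun p hp hRp => hxa.trans (hT.lab_mono _ ha' _ hp (hR₂ _ ⟨p, hp, rfl⟩ hRp)))
  set T' : State := ⟨insert (R, x) T.lab, T.col⟩ with hT'
  have hdom : ∀ p ∈ T'.lab, p.1 ∈ (insert R T.dom : Set (Set ℕ)) := by
    rintro p (rfl | hp)
    · exact Or.inl rfl
    · exact Or.inr ⟨p, hp, rfl⟩
  have e₂ : Ext T' ⟨insert (R', y) T'.lab, T'.col⟩ := insertLab e₁.1 R' y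
    (fun p hp hpR2 =>
      (e₁.1.lab_mono _ hp _ (Or.inr hb') (hR'₁ _ (hdom p hp) hpR2)).trans hby)
    (fun p hp hRp =>
      hyb.trans (e₁.1.lab_mono _ (Or.inr hb) _ hp (hR'₂ _ (hdom p hp) hRp)))
  set T'' : State := ⟨insert (R', y) T'.lab, T'.col⟩ with hT''
  set B : Set Port := {z | if z.1 then z.2 ∉ R' else z.2 ∈ R} with hB
  have hBi : inn B = R := by ext k; simp [inn, hB]
  have hBo : (out B)ᶜ = R' := by ext k; simp [out, hB]
  have hBo' : out B = R'ᶜ := by rw [← hBo, compl_compl]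
  have hAB : AE A B := ae_port (by rw [hBi]; exact hpR)
    (by rw [hBo']; simpa using hRq'.compl)
  have hBZ : AE B Z := ae_port (by rw [hBi]; exact hRq)
    (by rw [hBo']; simpa using hpR'.compl)
  have below : ∀ p ∈ T.col, AE p.1 B → AE p.1 A := by
    intro p hp hpB
    obtain ⟨u, v, hu, hv, -, -⟩ := hT.col_lab p hp
    refine ae_port (hR₁ _ ⟨_, hu, rfl⟩ (hBi ▸ ae_inn hpB)) ?_
    have h3 : AE R' (out p.1)ᶜ := hBo ▸ (ae_out hpB).compl
    have h4 := (hR'₂ _ (Or.inr ⟨_, hv, rfl⟩) h3).compl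
    simpa using h4
  have above : ∀ p ∈ T.col, AE B p.1 → AE Z p.1 := by
    intro p hp hBp
    obtain ⟨u, v, hu, hv, -, -⟩ := hT.col_lab p hp
    refine ae_port (hR₂ _ ⟨_, hu, rfl⟩ (hBi ▸ ae_inn hBp)) ?_
    have h3 : AE (out p.1)ᶜ R' := hBo ▸ (ae_out hBp).compl
    have h4 := (hR'₁ _ (Or.inr ⟨_, hv, rfl⟩) h3).compl
    simpa using h4
  have e₃ : Ext T'' ⟨T''.lab, insert (B, 0) T''.col⟩ := insertCol e₂.1 B 0
    (fun p hp hpB =>
      (hT.col_mono p hp (A, -1) hA (below p hp hpB)).trans (show (-1 : SignType) ≤ 0 by decide))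
    (fun p hp hBp =>
      le_trans (show (0 : SignType) ≤ 1 by decide) (hT.col_mono (Z, 1) hZ p hp (above p hp hBp)))
    (fun _ p hp h0 hpB => absurd (hT.col_mono p hp (A, -1) hA (below p hp hpB))
      (by rw [h0]; exact (show ¬ ((0 : SignType) ≤ -1) by decide)))
    (fun _ p hp h0 hBp => absurd (hT.col_mono (Z, 1) hZ p hp (above p hp hBp))
      (by rw [h0]; exact (show ¬ ((1 : SignType) ≤ 0) by decide)))
    (a := x) (b := y) (by rw [hBi]; exact Or.inr (Or.inl rfl)) (by rw [hBo]; exact Or.inl rfl)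
    (fun h' => absurd h' hfl) (fun h' => absurd h' hfh)
  refine ⟨_, ((h₁.trans h₂).trans e₁).trans (e₂.trans e₃), -1, 1, ?_, ?_, fun _ _ _ => ?_⟩
  · exact Or.inr hA
  · exact Or.inr hZ
  · exact ⟨B, Or.inl rfl, hAB, hBZ⟩

end Vale.Agent.P068
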